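import Mathlib

/-!
Definitions for P007: the space of covolume-one lattices, torus packets of orders in totally
real fields, and failure of equidistribution.
-/

namespace Vale.Agent.P007

open MeasureTheory Filter Topology

/-- The group SL(n, ℝ). -/
abbrev G (n : ℕ) := Matrix.SpecialLinearGroup (Fin n) ℝ

/-- The image of SL(n, ℤ) in SL(n, ℝ). -/
def intSubgroup (n : ℕ) : Subgroup (G n) :=
  (Matrix.SpecialLinearGroup.map (n := Fin n) (Int.castRingHom ℝ)).range

/-- `X n` is the right coset space SL(n, ℤ) \ SL(n, ℝ), with the quotient topology and its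
Borel sets. -/
def X (n : ℕ) := Quotient (QuotientGroup.rightRel (intSubgroup n))

instance (n : ℕ) : TopologicalSpace (X n) :=
  inferInstanceAs (TopologicalSpace (Quotient (QuotientGroup.rightRel (intSubgroup n))))

instance (n : ℕ) : MeasurableSpace (X n) := borel (X n)

instance (n : ℕ) : BorelSpace (X n) := ⟨rfl⟩

/-- The class of a matrix in `X n`. -/
def proj {n : ℕ} (g : G n) : X n := Quotient.mk (QuotientGroup.rightRel (intSubgroup n)) g

/-- The lattice spanned over ℤ by the rows of `g`. -/
def latticeOf {n : ℕ} (g : G n) : Set (Fin n → ℝ) :=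
  {v | ∃ m : Fin n → ℤ, ∀ j, v j = ∑ i, (m i : ℝ) * (g : Matrix (Fin n) (Fin n) ℝ) i j}

/-- An order in a number field: a subring of integral elements of full rank. -/
def IsOrder {K : Type} [Field K] [CharZero K] (O : Subring K) : Prop :=
  (∀ x ∈ O, IsIntegral ℤ x) ∧ Submodule.span ℚ (O : Set K) = ⊤

/-- The union of the orbits in the packet of `(O, σ)`: all points of `X n` whose lattice is
`σ(I) · c · w · a` for an invertible fractional `O`-ideal `I`, the normalising scalar `c`,
a diagonal sign matrix `w` and a positive diagonal matrix `a` of determinant one. -/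
def packetSupport {n : ℕ} {K : Type} [Field K] (σ : Fin n ≃ (K →+* ℝ)) (O : Subring K) :
    Set (X n) :=
  {x | ∃ g : G n, proj g = x ∧ ∃ I : Submodule O K, IsUnit I ∧ ∃ c : ℝ, 0 < c ∧
    ∃ w : Fin n → ℝ, (∀ j, w j = 1 ∨ w j = -1) ∧
    ∃ a : Fin n → ℝ, (∀ j, 0 < a j) ∧ ∏ j, a j = 1 ∧
      latticeOf g = (fun (y : K) (j : Fin n) => c * σ j y * w j * a j) '' (I : Set K)}

/-- Right translation of `X n` by an element of SL(n, ℝ). -/
def translate {n : ℕ} (h : G n) : X n → X n :=
  Quotient.map (fun g => g * h) (fun a b hab => by
    have : b * a⁻¹ ∈ intSubgroup n := QuotientGroup.rightRel_apply.1 hab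
    exact QuotientGroup.rightRel_apply.2 (by simpa [mul_assoc] using this))

/-- A sequence of subsets of `X n` cannot carry probability measures converging to Haar measure:
one continuous compactly supported test function separates every such sequence of measures from
every probability measure that is either translation invariant or positive on nonempty open
sets. -/
def NotEquidistributed {n : ℕ} (S : ℕ → Set (X n)) : Prop :=
  ∃ f : X n → ℝ, Continuous f ∧ HasCompactSupport f ∧
    ∀ m : Measure (X n), IsProbabilityMeasure m →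
      ((∀ U : Set (X n), IsOpen U → U.Nonempty → 0 < m U) ∨
        (∀ h : G n, m.map (translate h) = m)) →
      ∀ ν : ℕ → Measure (X n), (∀ i, IsProbabilityMeasure (ν i) ∧ ν i (S i)ᶜ = 0) →
        ¬ Tendsto (fun i => ∫ x, f x ∂(ν i)) atTop (𝓝 (∫ x, f x ∂m))

end Vale.Agent.P007
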