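import Mathlib

/-!
Totally real fields of every composite degree containing an algebraic integer of intermediate
degree, cut out by Dickson polynomials.
-/

namespace Vale.Agent.P007

open Polynomial

/-- The Dickson polynomial of degree `m` (parameter one). -/
noncomputable def dick (m : ℕ) : ℤ[X] := Chebyshev.C ℤ (m : ℤ)

lemma dick_add_two (m : ℕ) : dick (m + 2) = X * dick (m + 1) - dick m := by
  simp only [dick]; push_cast; exact Chebyshev.C_add_two ℤ m

lemma dick_monic_natDegree : ∀ m : ℕ, ((dick (m + 1)).Monic ∧ (dick (m + 1)).natDegree = m + 1) ∧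
    (dick m).natDegree ≤ m := by
  intro m
  induction m with
  | zero => simp [dick, monic_X]
  | succ m ih =>
    obtain ⟨⟨hm, hd⟩, hle⟩ := ih
    refine ⟨?_, hd.le⟩
    have hX : (X * dick (m + 1)).natDegree = m + 2 := by
      rw [monic_X.natDegree_mul hm, natDegree_X, hd]; omega
    have hXm : (X * dick (m + 1)).Monic := monic_X.mul hm
    have hlt : (dick m).degree < (X * dick (m + 1)).degree := by
      refine lt_of_le_of_lt degree_le_natDegree ?_
      rw [degree_eq_natDegree hXm.ne_zero, hX]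
      exact_mod_cast (show (dick m).natDegree < m + 2 by omega)
    rw [show m + 1 + 1 = m + 2 from rfl, dick_add_two]
    refine ⟨hXm.sub_of_left hlt, ?_⟩
    rw [natDegree_eq_of_degree_eq (degree_sub_eq_left_of_degree_lt hlt), hX]

lemma dick_monic {m : ℕ} (hm : 0 < m) : (dick m).Monic ∧ (dick m).natDegree = m := by
  obtain ⟨k, rfl⟩ := Nat.exists_eq_succ_of_ne_zero hm.ne'
  exact (dick_monic_natDegree k).1

lemma dick_comp (a b : ℕ) : dick (a * b) = (dick b).comp (dick a) := by
  simp only [dick]; push_cast; rw [mul_comm, Chebyshev.C_mul]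

lemma aeval_dick_cos (x : ℝ) : ∀ m : ℕ, aeval (2 * Real.cos x) (dick m) = 2 * Real.cos (m * x)
  | 0 => by simp [dick, map_ofNat]
  | 1 => by simp [dick]
  | m + 2 => by
    rw [dick_add_two, map_sub, map_mul, aeval_X, aeval_dick_cos x (m + 1), aeval_dick_cos x m]
    have e1 : ((m + 2 : ℕ) : ℝ) * x = ((m : ℝ) + 1) * x + x := by push_cast; ring
    have e2 : (m : ℝ) * x = ((m : ℝ) + 1) * x - x := by ring
    rw [e1, e2, Real.cos_add, Real.cos_sub]
    push_cast
    ring

lemma aeval_scaleRoots_mul {A : Type*} [CommRing A] (p : ℤ[X]) (s : ℤ) (r : A) :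
    aeval ((s : A) * r) (p.scaleRoots s) = (s : A) ^ p.natDegree * aeval r p := by
  have := scaleRoots_eval₂_mul (p := p) (algebraMap ℤ A) r s
  simpa [aeval_def] using this

/-- `2 ^ n · D_n (X / 2) - 2`, an Eisenstein polynomial at two. -/
noncomputable def eisPoly (n : ℕ) : ℤ[X] := (dick n).scaleRoots 2 - C 2

lemma eisPoly_props {n : ℕ} (hn : 2 ≤ n) :
    (eisPoly n).Monic ∧ (eisPoly n).natDegree = n ∧ Irreducible (eisPoly n) := by
  obtain ⟨hm, hd⟩ := dick_monic (show 0 < n by omega)
  have hsm : ((dick n).scaleRoots 2).Monic := (monic_scaleRoots_iff 2).2 hm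
  have hsd : ((dick n).scaleRoots 2).natDegree = n := by rw [natDegree_scaleRoots, hd]
  have hlt : (C (2 : ℤ)).degree < ((dick n).scaleRoots 2).degree := by
    refine lt_of_le_of_lt degree_C_le ?_
    rw [degree_eq_natDegree hsm.ne_zero, hsd]
    exact_mod_cast (show 0 < n by omega)
  have hmon : (eisPoly n).Monic := hsm.sub_of_left hlt
  have hdeg : (eisPoly n).natDegree = n := by
    rw [eisPoly, natDegree_eq_of_degree_eq (degree_sub_eq_left_of_degree_lt hlt), hsd]
  refine ⟨hmon, hdeg, ?_⟩
  have hprime : (Ideal.span {(2 : ℤ)}).IsPrime :=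
    (Ideal.span_singleton_prime (by norm_num)).2 Int.prime_two
  refine IsEisensteinAt.irreducible ⟨?_, ?_, ?_⟩ hprime hmon.isPrimitive (by omega)
  · rw [hmon.leadingCoeff, Ideal.mem_span_singleton]; omega
  · intro i hi
    rw [hdeg] at hi
    rw [Ideal.mem_span_singleton, eisPoly, coeff_sub, coeff_scaleRoots, hd, coeff_C]
    refine dvd_sub (Dvd.dvd.mul_left (dvd_pow_self 2 (by omega)) _) ?_
    split_ifs <;> simp
  · rw [Ideal.span_singleton_pow, Ideal.mem_span_singleton, eisPoly, coeff_sub,
      coeff_scaleRoots, hd, coeff_C_zero]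
    intro h
    have h4 : (2 : ℤ) ^ 2 ∣ (dick n).coeff 0 * 2 ^ (n - 0) :=
      Dvd.dvd.mul_left (pow_dvd_pow 2 (by omega)) _
    have h2 := dvd_sub h4 h
    rw [sub_sub_cancel] at h2
    norm_num at h2

/-- The angle giving the `k`-th real root of `eisPoly n`. -/
noncomputable def angle (n : ℕ) (k : Fin n) : ℝ :=
  (Real.arccos ((2 ^ n : ℝ))⁻¹ + 2 * Real.pi * (k : ℕ)) / n

lemma angle_root {n : ℕ} (hn : 2 ≤ n) (k : Fin n) :
    aeval (4 * Real.cos (angle n k)) (eisPoly n) = 0 := by
  have hd := (dick_monic (show 0 < n by omega)).2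
  have h4 : 4 * Real.cos (angle n k) = ((2 : ℤ) : ℝ) * (2 * Real.cos (angle n k)) := by
    push_cast; ring
  rw [eisPoly, map_sub, h4, aeval_scaleRoots_mul, hd, aeval_dick_cos]
  have hne : (n : ℝ) ≠ 0 := by exact_mod_cast (show n ≠ 0 by omega)
  have : (n : ℝ) * angle n k = Real.arccos ((2 ^ n : ℝ))⁻¹ + (k : ℕ) * (2 * Real.pi) := by
    rw [angle]; field_simp
  have hu : ((2 ^ n : ℝ))⁻¹ ≤ 1 := inv_le_one_of_one_le₀ (one_le_pow₀ (by norm_num))
  have hu0 : (0 : ℝ) ≤ ((2 ^ n : ℝ))⁻¹ := by positivity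
  rw [this, Real.cos_add_nat_mul_two_pi, Real.cos_arccos (by linarith) hu]
  simp [map_ofNat]
  try field_simp
  try ring

lemma angle_injective {n : ℕ} (hn : 2 ≤ n) :
    Function.Injective (fun k : Fin n => 4 * Real.cos (angle n k)) := by
  intro j k h
  have hcos : Real.cos (angle n j) = Real.cos (angle n k) := by simpa using h
  obtain ⟨m, hm⟩ := Real.cos_eq_cos_iff.1 hcos
  set t := Real.arccos ((2 ^ n : ℝ))⁻¹ with ht
  have ht0 : 0 < t := by
    rw [ht, Real.arccos_pos]
    exact inv_lt_one_of_one_lt₀ (one_lt_pow₀ (by norm_num) (by omega))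
  have ht1 : t ≤ Real.pi / 2 := by
    rw [ht, Real.arccos_le_pi_div_two]; positivity
  have hpi := Real.pi_pos
  have hne : (n : ℝ) ≠ 0 := by exact_mod_cast (show n ≠ 0 by omega)
  simp only [angle, ← ht] at hm
  rcases hm with hm | hm
  · field_simp at hm
    have h1 : ((k : ℕ) : ℤ) = (m : ℤ) * n + (j : ℕ) := by
      have : ((k : ℕ) : ℝ) = (m : ℝ) * n + (j : ℕ) := by
        refine mul_left_cancel₀ (show (2 * Real.pi) ≠ 0 by positivity) ?_
        linarith
      exact_mod_cast this
    have hj := j.isLt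
    have hk := k.isLt
    have hm0 : m = 0 := by
      rcases lt_trichotomy m 0 with h0 | h0 | h0
      · exfalso; nlinarith
      · exact h0
      · exfalso; nlinarith
    rw [hm0] at h1
    ext
    omega
  · field_simp at hm
    exfalso
    have h1 : t = Real.pi * ((m * n - (j : ℕ) - (k : ℕ) : ℤ) : ℝ) := by
      push_cast; linarith
    set q : ℤ := m * n - (j : ℕ) - (k : ℕ)
    rw [h1] at ht0 ht1
    have hq1 : (0 : ℝ) < q := pos_of_mul_pos_right ht0 hpi.le
    have hq2 : (1 : ℝ) ≤ q := by exact_mod_cast (show (1 : ℤ) ≤ q by exact_mod_cast hq1)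
    nlinarith

/-- For all `a, b ≥ 2` there is a totally real field of degree `a * b` with an irrational
algebraic integer of degree less than `a * b`. -/
theorem exists_field {a b : ℕ} (ha : 2 ≤ a) (hb : 2 ≤ b) :
    ∃ (K : Type) (_ : Field K) (_ : NumberField K) (_ : Fin (a * b) ≃ (K →+* ℝ)) (z : K),
      Module.finrank ℚ K = a * b ∧ IsIntegral ℤ z ∧ z ∉ Set.range (algebraMap ℚ K) ∧
        (minpoly ℚ z).natDegree < a * b := by
  classical
  set n := a * b with hn_def
  have hn : 2 ≤ n := by nlinarith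
  obtain ⟨hmon, hdeg, hirr⟩ := eisPoly_props hn
  let f : ℚ[X] := (eisPoly n).map (algebraMap ℤ ℚ)
  have hfm : f.Monic := hmon.map _
  have hfd : f.natDegree = n := by rw [hmon.natDegree_map, hdeg]
  have hfi : Irreducible f := hmon.irreducible_iff_irreducible_map_fraction_map.1 hirr
  haveI : Fact (Irreducible f) := ⟨hfi⟩
  let K := AdjoinRoot f
  haveI hchar : CharZero K := charZero_of_injective_algebraMap (algebraMap ℚ K).injective
  have halg : (DivisionRing.toRatAlgebra : Algebra ℚ K) = (inferInstance : Algebra ℚ K) :=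
    Subsingleton.elim _ _
  have hfin : Module.finrank ℚ K = n := by
    rw [← hfd]
    convert (AdjoinRoot.powerBasis hfi.ne_zero).finrank using 1
    congr 1
    all_goals first
      | rfl
      | exact (AdjoinRoot.powerBasis_dim hfi.ne_zero).symm
      | (ext r x; simp [Algebra.smul_def])
  haveI : FiniteDimensional ℚ K := Module.finite_of_finrank_pos (by omega)
  haveI : NumberField K := {}
  let y : K := AdjoinRoot.root f
  have hy : aeval y (eisPoly n) = 0 := by
    have h : (f.map (AdjoinRoot.of f)).eval y = 0 := AdjoinRoot.isRoot_root f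
    rw [Polynomial.map_map, eval_map] at h
    rw [aeval_def]
    exact (Subsingleton.elim ((AdjoinRoot.of f).comp (algebraMap ℤ ℚ)) (algebraMap ℤ K)) ▸ h
  have hyQ : aeval y f = 0 := by rw [aeval_map_algebraMap]; exact hy
  have hymin : minpoly ℚ y = f := (minpoly.eq_of_irreducible_of_monic hfi hyQ hfm).symm
  -- the embeddings
  have heval : ∀ k : Fin n, f.eval₂ (Rat.castHom ℝ) (4 * Real.cos (angle n k)) = 0 := by
    intro k
    rw [eval₂_map]
    have := angle_root hn k
    rw [aeval_def] at this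
    exact (Subsingleton.elim (algebraMap ℤ ℝ) ((Rat.castHom ℝ).comp (algebraMap ℤ ℚ))) ▸ this
  let φ : Fin n → (K →+* ℝ) := fun k => AdjoinRoot.lift (Rat.castHom ℝ) _ (heval k)
  have hφ : Function.Injective φ := fun j k h => by
    apply angle_injective hn
    have := RingHom.congr_fun h y
    exact ((AdjoinRoot.lift_root (heval j)).symm.trans this).trans
      (AdjoinRoot.lift_root (heval k))
  let ι : (K →+* ℝ) → (K →+* ℂ) := fun ψ => Complex.ofRealHom.comp ψ
  have hι : Function.Injective ι := fun φ ψ e =>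
    RingHom.ext fun x => Complex.ofReal_injective (RingHom.congr_fun e x)
  haveI : Finite (K →+* ℝ) := Finite.of_injective ι hι
  haveI : Fintype (K →+* ℝ) := Fintype.ofFinite _
  have hbij : Function.Bijective φ := by
    rw [Fintype.bijective_iff_injective_and_card]
    refine ⟨hφ, le_antisymm (Fintype.card_le_of_injective φ hφ) ?_⟩
    have := Fintype.card_le_of_injective ι hι
    rw [NumberField.Embeddings.card, hfin] at this
    simpa using this
  -- the element of intermediate degree
  obtain ⟨hma, hda⟩ := dick_monic (show 0 < a by omega)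
  obtain ⟨hmb, hdb⟩ := dick_monic (show 0 < b by omega)
  let A : ℤ[X] := (dick a).scaleRoots 2
  let R : ℤ[X] := (dick b).scaleRoots (2 ^ a) - C 2
  let z : K := aeval y A
  have hAm : A.Monic := (monic_scaleRoots_iff 2).2 hma
  have hAd : A.natDegree = a := by rw [natDegree_scaleRoots, hda]
  have hlt : (C (2 : ℤ)).degree < ((dick b).scaleRoots (2 ^ a)).degree := by
    refine lt_of_le_of_lt degree_C_le ?_
    rw [degree_scaleRoots, degree_eq_natDegree hmb.ne_zero, hdb]
    exact_mod_cast (show 0 < b by omega)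
  have hRm : R.Monic := ((monic_scaleRoots_iff _).2 hmb).sub_of_left hlt
  have hRd : R.natDegree = b := by
    rw [natDegree_eq_of_degree_eq (degree_sub_eq_left_of_degree_lt hlt), natDegree_scaleRoots,
      hdb]
  have h2K : (2 : K) ≠ 0 := two_ne_zero
  have hy2 : ((2 : ℤ) : K) * (y / 2) = y := by
    rw [Int.cast_ofNat, mul_div_cancel₀ _ h2K]
  have hscale : ∀ (p : ℤ[X]) (s : ℤ) (r x : K), x = (s : K) * r →
      aeval x (p.scaleRoots s) = (s : K) ^ p.natDegree * aeval r p := by
    intro p s r x h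
    rw [h]
    exact aeval_scaleRoots_mul (A := K) p s r
  have hz : z = ((2 ^ a : ℤ) : K) * aeval (y / 2) (dick a) := by
    change aeval y ((dick a).scaleRoots 2) = _
    rw [hscale _ 2 _ y hy2.symm, hda]
    push_cast
    rfl
  have hzR : aeval z R = 0 := by
    rw [map_sub, hscale _ _ _ z hz, hdb, ← aeval_comp, ← dick_comp, ← hn_def]
    have hP := hy
    rw [eisPoly, map_sub] at hP
    rw [hscale _ 2 _ y hy2.symm, (dick_monic (show 0 < n by omega)).2] at hP
    rw [← hP, hn_def, aeval_C, aeval_C]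
    push_cast
    ring
  refine ⟨K, inferInstance, inferInstance, Equiv.ofBijective φ hbij, z, hfin,
    ⟨R, hRm, by rwa [← aeval_def]⟩, ?_, ?_⟩
  · rintro ⟨q, hq⟩
    let A' : ℚ[X] := A.map (algebraMap ℤ ℚ) - C q
    have hA'0 : aeval y A' = 0 := by
      rw [map_sub, aeval_C, aeval_map_algebraMap, hq, sub_self]
    have hA'd : A'.natDegree = a := by
      rw [natDegree_sub_C, hAm.natDegree_map, hAd]
    have hA'ne : A' ≠ 0 := fun h => by rw [h, natDegree_zero] at hA'd; omega
    have := natDegree_le_of_dvd (minpoly.dvd ℚ y hA'0) hA'ne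
    rw [hymin, hfd, hA'd] at this
    have : a * 2 ≤ a * b := Nat.mul_le_mul_left a hb
    omega
  · have hR0 : aeval z (R.map (algebraMap ℤ ℚ)) = 0 := by rw [aeval_map_algebraMap, hzR]
    have := natDegree_le_of_dvd (minpoly.dvd ℚ z hR0) ((hRm.map _).ne_zero)
    rw [hRm.natDegree_map, hRd] at this
    have : 2 * b ≤ a * b := Nat.mul_le_mul_right b ha
    omega

end Vale.Agent.P007
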