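import Vale.Agent.P007.Defs

/-!
The orders `ℤ[z] + N 𝓞_K`, their discriminants, and nonemptiness of packets.
-/

namespace Vale.Agent.P007

open Matrix NumberField

variable {K : Type} [Field K] [NumberField K]

/-- The subring `ℤ[z] + N 𝓞_K`. -/
def orderN (z : K) (hz : IsIntegral ℤ z) (N : ℕ) : Subring K where
  carrier := {x | ∃ p ∈ Algebra.adjoin ℤ {z}, ∃ y : K, IsIntegral ℤ y ∧ x = p + (N : K) * y}
  mul_mem' := by
    rintro _ _ ⟨p, hp, y, hy, rfl⟩ ⟨q, hq, u, hu, rfl⟩
    have hpi : IsIntegral ℤ p :=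
      (Algebra.adjoin_le (S := integralClosure ℤ K) (Set.singleton_subset_iff.2 hz)) hp
    have hqi : IsIntegral ℤ q :=
      (Algebra.adjoin_le (S := integralClosure ℤ K) (Set.singleton_subset_iff.2 hz)) hq
    have hN : IsIntegral ℤ (N : K) := by
      simpa using (isIntegral_algebraMap (R := ℤ) (A := K) (x := (N : ℤ)))
    exact ⟨p * q, mul_mem hp hq, p * u + q * y + (N : K) * (y * u),
      ((hpi.mul hu).add (hqi.mul hy)).add (hN.mul (hy.mul hu)), by ring⟩
  one_mem' := ⟨1, one_mem _, 0, isIntegral_zero, by simp⟩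
  add_mem' := by
    rintro _ _ ⟨p, hp, y, hy, rfl⟩ ⟨q, hq, u, hu, rfl⟩
    exact ⟨p + q, add_mem hp hq, y + u, hy.add hu, by ring⟩
  zero_mem' := ⟨0, zero_mem _, 0, isIntegral_zero, by simp⟩
  neg_mem' := by
    rintro _ ⟨p, hp, y, hy, rfl⟩
    exact ⟨-p, neg_mem hp, -y, hy.neg, by ring⟩

lemma mem_orderN_self (z : K) (hz : IsIntegral ℤ z) (N : ℕ) : z ∈ orderN z hz N :=
  ⟨z, Algebra.self_mem_adjoin_singleton ℤ z, 0, isIntegral_zero, by simp⟩

lemma orderN_integral (z : K) (hz : IsIntegral ℤ z) (N : ℕ) {x : K} (hx : x ∈ orderN z hz N) :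
    IsIntegral ℤ x := by
  obtain ⟨p, hp, y, hy, rfl⟩ := hx
  have hN : IsIntegral ℤ (N : K) := by
    simpa using (isIntegral_algebraMap (R := ℤ) (A := K) (x := (N : ℤ)))
  exact IsIntegral.add
    ((Algebra.adjoin_le (S := integralClosure ℤ K) (Set.singleton_subset_iff.2 hz)) hp)
    (hN.mul hy)

lemma mul_mem_orderN (z : K) (hz : IsIntegral ℤ z) (N : ℕ) (y : 𝓞 K) :
    (N : K) * (y : K) ∈ orderN z hz N :=
  ⟨0, zero_mem _, y, y.2, by simp⟩

/-- The inclusion of an integral subring in the ring of integers. -/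
def toInt (O : Subring K) (h : ∀ x ∈ O, IsIntegral ℤ x) : O →ₗ[ℤ] 𝓞 K :=
  AddMonoidHom.toIntLinearMap
    { toFun := fun x => ⟨x.1, h x.1 x.2⟩
      map_zero' := rfl
      map_add' := fun _ _ => rfl }

lemma isOrder_orderN (z : K) (hz : IsIntegral ℤ z) (N : ℕ) (hN : N ≠ 0) :
    IsOrder (orderN z hz N) := by
  refine ⟨fun x hx => orderN_integral z hz N hx, ?_⟩
  rw [eq_top_iff, ← (integralBasis K).span_eq, Submodule.span_le]
  rintro _ ⟨i, rfl⟩
  rw [integralBasis_apply]
  have h : (N : K) * (algebraMap (𝓞 K) K (RingOfIntegers.basis K i)) ∈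
      Submodule.span ℚ (orderN z hz N : Set K) :=
    Submodule.subset_span (mul_mem_orderN z hz N _)
  have h' := Submodule.smul_mem _ ((N : ℚ)⁻¹) h
  rw [Algebra.smul_def, map_inv₀, map_natCast, ← mul_assoc,
    inv_mul_cancel₀ (Nat.cast_ne_zero.2 hN), one_mul] at h'
  exact h'

/-- An order has a ℤ-basis of size the degree. -/
lemma exists_basis_orderN {n : ℕ} (hn : Module.finrank ℚ K = n) (z : K) (hz : IsIntegral ℤ z)
    (N : ℕ) (hN : N ≠ 0) : Nonempty (Module.Basis (Fin n) ℤ (orderN z hz N)) := by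
  set O := orderN z hz N
  let f := toInt O (fun x hx => orderN_integral z hz N hx)
  have hf : Function.Injective f := fun a b h =>
    Subtype.ext (congrArg (fun t : 𝓞 K => (t : K)) h)
  haveI : Module.Finite ℤ O := Module.Finite.of_injective f hf
  haveI : Module.IsTorsionFree ℤ O := hf.moduleIsTorsionFree f (fun c x => map_smul f c x)
  haveI : Module.Free ℤ O := Module.free_of_finite_type_torsion_free'
  let g : 𝓞 K →ₗ[ℤ] O := AddMonoidHom.toIntLinearMap
    { toFun := fun y => ⟨(N : K) * (y : K), mul_mem_orderN z hz N y⟩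
      map_zero' := Subtype.ext (by simp)
      map_add' := fun a b => Subtype.ext (by simp [mul_add]) }
  have hg : Function.Injective g := fun a b h => by
    have := congrArg Subtype.val h
    exact RingOfIntegers.ext (mul_left_cancel₀ (Nat.cast_ne_zero.2 hN) this)
  have h1 := LinearMap.finrank_le_finrank_of_injective hf
  have h2 := LinearMap.finrank_le_finrank_of_injective hg
  exact ⟨Module.finBasisOfFinrankEq ℤ O (by rw [RingOfIntegers.rank, hn] at h1 h2; omega)⟩

lemma linearIndependent_of_basis {n : ℕ} (O : Subring K) (b : Module.Basis (Fin n) ℤ O) :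
    LinearIndependent ℚ (fun k => (b k : K)) := by
  have h : LinearIndependent ℤ (fun k => (b k : K)) := by
    have := b.linearIndependent.map' (AddMonoidHom.toIntLinearMap O.toAddSubgroup.subtype)
      (LinearMap.ker_eq_bot.2 Subtype.val_injective)
    exact this
  exact LinearIndependent.iff_fractionRing (R := ℤ) (K := ℚ) |>.1 h

lemma discr_ne_zero_of_basis {n : ℕ} (hn : Module.finrank ℚ K = n) (O : Subring K)
    (b : Module.Basis (Fin n) ℤ O) : Algebra.discr ℚ (fun k => (b k : K)) ≠ 0 := by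
  rcases Nat.eq_zero_or_pos n with rfl | hpos
  · exact absurd hn Module.finrank_pos.ne'
  haveI : Nonempty (Fin n) := ⟨⟨0, hpos⟩⟩
  have := basisOfLinearIndependentOfCardEqFinrank (linearIndependent_of_basis O b) (by simp [hn])
  have h := Algebra.discr_not_zero_of_basis (K := ℚ) (L := K)
    (basisOfLinearIndependentOfCardEqFinrank (linearIndependent_of_basis O b) (by simp [hn]))
  rwa [coe_basisOfLinearIndependentOfCardEqFinrank] at h

/-- The discriminant of `ℤ[z] + N 𝓞_K` is at least `N ^ 2` when `z` has degree less than `n`. -/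
lemma natCast_sq_le_discr {n : ℕ} (hn : Module.finrank ℚ K = n) (z : K) (hz : IsIntegral ℤ z)
    (hzd : (minpoly ℚ z).natDegree < n) (N : ℕ) (b : Module.Basis (Fin n) ℤ (orderN z hz N)) :
    (N : ℚ) ^ 2 ≤ |Algebra.discr ℚ (fun k => (b k : K))| := by
  classical
  have hcard : Fintype.card (Module.Free.ChooseBasisIndex ℤ (𝓞 K)) = n := by
    rw [← Module.finrank_eq_card_chooseBasisIndex, RingOfIntegers.rank, hn]
  let ε := Fintype.equivFinOfCardEq hcard
  let e : Module.Basis (Fin n) ℤ (𝓞 K) := (RingOfIntegers.basis K).reindex ε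
  let ev : Fin n → K := fun i => (e i : K)
  have hev : Algebra.discr ℚ ev = (discr K : ℚ) := by
    rw [coe_discr, ← Algebra.discr_reindex ℚ (integralBasis K) ε]
    congr 1
    funext i
    simp [ev, e, integralBasis_apply, Module.Basis.reindex_apply]
  have hdec : ∀ k, ∃ p : 𝓞 K, (p : K) ∈ Algebra.adjoin ℤ {z} ∧ ∃ y : 𝓞 K,
      (b k : K) = (p : K) + (N : K) * (y : K) := by
    intro k
    obtain ⟨p, hp, y, hy, he⟩ := (b k).2
    exact ⟨⟨p, (Algebra.adjoin_le (S := integralClosure ℤ K)
      (Set.singleton_subset_iff.2 hz)) hp⟩, hp, ⟨y, hy⟩, he⟩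
  choose p hp y hy using hdec
  let Q : Matrix (Fin n) (Fin n) ℤ := Matrix.of fun k i => e.repr (p k) i
  let Y : Matrix (Fin n) (Fin n) ℤ := Matrix.of fun k i => e.repr (y k) i
  have hrepr : ∀ x : 𝓞 K, (x : K) = ∑ i, (algebraMap ℤ K (e.repr x i)) * ev i := by
    intro x
    conv_lhs => rw [← e.sum_repr x]
    simp [ev, Algebra.smul_def]
  have hQ : ((Int.castRingHom ℚ).mapMatrix Q).map (algebraMap ℚ K) *ᵥ ev =
      fun k => (p k : K) := by
    funext k
    simp [Matrix.mulVec, dotProduct, Q, hrepr (p k)]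
  have hP : ((Int.castRingHom ℚ).mapMatrix (Q + (N : ℤ) • Y)).map (algebraMap ℚ K) *ᵥ ev =
      fun k => (b k : K) := by
    funext k
    rw [hy k, hrepr (p k), hrepr (y k)]
    simp [Matrix.mulVec, dotProduct, Q, Y, Finset.mul_sum, Finset.sum_add_distrib, add_mul,
      mul_assoc]
  have hdQ : Algebra.discr ℚ (fun k => (p k : K)) = 0 := by
    refine Algebra.discr_zero_of_not_linearIndependent ℚ fun hli => ?_
    have hzQ : IsIntegral ℚ z := Algebra.IsIntegral.isIntegral z
    let S := Algebra.adjoin ℚ ({z} : Set K)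
    have hmem : ∀ k, (p k : K) ∈ S := fun k => by
      have hle : Algebra.adjoin ℤ ({z} : Set K) ≤ S.restrictScalars ℤ :=
        Algebra.adjoin_le (Set.singleton_subset_iff.2 (Algebra.self_mem_adjoin_singleton ℚ z))
      exact hle (hp k)
    let pS : Fin n → S := fun k => ⟨(p k : K), hmem k⟩
    have hliS : LinearIndependent ℚ pS :=
      LinearIndependent.of_comp S.val.toLinearMap hli
    haveI : FiniteDimensional ℚ S := (Algebra.adjoin.powerBasis hzQ).finite
    have := hliS.fintype_card_le_finrank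
    rw [(Algebra.adjoin.powerBasis hzQ).finrank, Algebra.adjoin.powerBasis_dim,
      Fintype.card_fin] at this
    omega
  have he0 : (discr K : ℚ) ≠ 0 := by exact_mod_cast discr_ne_zero K
  have hQdet : Q.det = 0 := by
    have h := Algebra.discr_of_matrix_mulVec (A := ℚ) ev ((Int.castRingHom ℚ).mapMatrix Q)
    rw [hQ, hdQ, hev, ← RingHom.map_det] at h
    simpa [he0] using h.symm
  set P := Q + (N : ℤ) • Y
  have hdvd : (N : ℤ) ∣ P.det := by
    rw [← ZMod.intCast_zmod_eq_zero_iff_dvd]
    have hPQ : (Int.castRingHom (ZMod N)).mapMatrix P = (Int.castRingHom (ZMod N)).mapMatrix Q := by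
      ext i j
      simp only [P, RingHom.mapMatrix_apply, Matrix.map_apply, Matrix.add_apply, Matrix.smul_apply]
      simp
    have h1 := RingHom.map_det (Int.castRingHom (ZMod N)) P
    rw [hPQ, ← RingHom.map_det, hQdet, map_zero] at h1
    simpa using h1
  have h := Algebra.discr_of_matrix_mulVec (A := ℚ) ev ((Int.castRingHom ℚ).mapMatrix P)
  rw [hP, hev, ← RingHom.map_det] at h
  have hne := discr_ne_zero_of_basis hn _ b
  rw [h] at hne
  have hPne : P.det ≠ 0 := fun h0 => hne (by simp [h0])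
  have hle : (N : ℤ) ≤ |P.det| :=
    Int.le_of_dvd (abs_pos.2 hPne) ((dvd_abs _ _).2 hdvd)
  have hd1 : (1 : ℤ) ≤ |discr K| := abs_pos.2 (discr_ne_zero K)
  have hmain : (N : ℤ) ^ 2 ≤ |P.det ^ 2 * discr K| := by
    rw [abs_mul, abs_pow]
    calc (N : ℤ) ^ 2 ≤ |P.det| ^ 2 := pow_le_pow_left₀ (by positivity) hle 2
      _ ≤ |P.det| ^ 2 * |discr K| := le_mul_of_one_le_right (by positivity) hd1
  rw [h]
  simp only [eq_intCast]
  exact_mod_cast hmain

/-- Packets of orders are nonempty. -/
lemma packetSupport_nonempty {n : ℕ} (hn : Module.finrank ℚ K = n)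
    (σ : Fin n ≃ (K →+* ℝ)) (O : Subring K) (b : Module.Basis (Fin n) ℤ O) :
    (packetSupport σ O).Nonempty := by
  classical
  have hnpos : 0 < n := hn ▸ Module.finrank_pos
  let A : Matrix (Fin n) (Fin n) ℝ := Matrix.of fun k j => σ j (b k : K)
  haveI : Fintype (K →+* ℝ) := Fintype.ofEquiv _ σ
  have hA : A.det ≠ 0 := by
    let ι : Fin n → (K →ₐ[ℚ] ℂ) := fun j => (Complex.ofRealHom.comp (σ j)).toRatAlgHom
    have hι : Function.Injective ι := fun i j h => by
      apply σ.injective
      refine RingHom.ext fun x => Complex.ofReal_injective ?_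
      exact AlgHom.congr_fun h x
    have hb : Function.Bijective ι := by
      rw [Fintype.bijective_iff_injective_and_card]
      exact ⟨hι, by rw [AlgHom.card, hn, Fintype.card_fin]⟩
    have h := Algebra.discr_eq_det_embeddingsMatrixReindex_pow_two ℚ ℂ (fun k => (b k : K))
      (Equiv.ofBijective ι hb)
    have hM : Algebra.embeddingsMatrixReindex ℚ ℂ (fun k => (b k : K)) (Equiv.ofBijective ι hb) =
        Complex.ofRealHom.mapMatrix A := by
      ext k j
      simp [Algebra.embeddingsMatrixReindex, Algebra.embeddingsMatrix, ι, A]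
    rw [hM, ← RingHom.map_det] at h
    intro h0
    rw [h0] at h
    simp at h
    exact discr_ne_zero_of_basis hn O b h
  let c : ℝ := |A.det| ^ (-(1 : ℝ) / n)
  have hc : 0 < c := Real.rpow_pos_of_pos (abs_pos.2 hA) _
  have hcn : c ^ n * |A.det| = 1 := by
    have hne : (n : ℝ) ≠ 0 := by exact_mod_cast hnpos.ne'
    simp only [c]
    rw [← Real.rpow_natCast, ← Real.rpow_mul (abs_nonneg _), div_mul_cancel₀ _ hne,
      Real.rpow_neg_one, inv_mul_cancel₀ (abs_ne_zero.2 hA)]
  let z : Fin n := ⟨0, hnpos⟩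
  let s : ℝ := if 0 < A.det then 1 else -1
  let w : Fin n → ℝ := fun j => if j = z then s else 1
  have hw : ∏ j, w j = s := by simp [w]
  let g : Matrix (Fin n) (Fin n) ℝ := A * diagonal (fun j => c * w j)
  have hg : g.det = 1 := by
    rw [det_mul, det_diagonal, Finset.prod_mul_distrib, hw, Finset.prod_const, Finset.card_univ,
      Fintype.card_fin]
    simp only [s]
    split_ifs with h
    · rw [abs_of_pos h] at hcn; linarith
    · rw [abs_of_nonpos (not_lt.1 h)] at hcn; linarith
  refine ⟨proj ⟨g, hg⟩, ⟨g, hg⟩, rfl, 1, isUnit_one, c, hc, w, ?_, fun _ => 1,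
    fun _ => one_pos, by simp, ?_⟩
  · intro j
    simp only [w, s]
    split_ifs <;> simp
  ext v
  constructor
  · rintro ⟨m, hm⟩
    refine ⟨((∑ k, m k • b k : O) : K),
      Submodule.mem_one.2 ⟨∑ k, m k • b k, rfl⟩, funext fun j => ?_⟩
    rw [hm j]
    simp [g, A, mul_diagonal, map_sum, Finset.mul_sum, Finset.sum_mul]
    refine Finset.sum_congr rfl fun k _ => ?_
    ring
  · rintro ⟨x, hx, rfl⟩
    obtain ⟨r, rfl⟩ := Submodule.mem_one.1 hx
    refine ⟨fun k => b.repr r k, fun j => ?_⟩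
    conv_lhs => rw [← b.sum_repr r]
    change c * σ j (((∑ k, b.repr r k • b k : O)) : K) * w j * 1 = _
    simp [g, A, mul_diagonal, map_sum, Finset.mul_sum, Finset.sum_mul]
    refine Finset.sum_congr rfl fun k _ => ?_
    ring

end Vale.Agent.P007
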