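import Vale.Agent.P007.Obstruction
import Vale.Agent.P007.Field
import Vale.Agent.P007.Orders

/-!
Totally real fields of every composite degree, of arbitrarily large discriminant, whose rings of
integers contain an irrational element of house at most 4.
-/

namespace Vale.Agent.P007

open Polynomial NumberField Filter Topology

/-- A prime dividing a power of an integer but not the integer divides the discriminant. -/
lemma prime_dvd_discr {K : Type} [Field K] [NumberField K] {p : ℕ} (hp : p.Prime) (y : 𝓞 K)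
    (m : ℕ) (hm : (p : 𝓞 K) ∣ y ^ m) (hy : ¬ (p : 𝓞 K) ∣ y) : (p : ℤ) ∣ discr K := by
  classical
  have : Fact p.Prime := ⟨hp⟩
  set b := RingOfIntegers.basis K
  rw [← discr_eq_discr K b, Algebra.discr_def, ← ZMod.intCast_zmod_eq_zero_iff_dvd,
    ← eq_intCast (Int.castRingHom (ZMod p)), RingHom.map_det]
  have hker : ∀ x : 𝓞 K, Int.castRingHom (ZMod p) (Algebra.trace ℤ (𝓞 K) (y * x)) = 0 := by
    intro x
    rw [Algebra.trace_eq_matrix_trace b]
    set f := (Int.castRingHom (ZMod p)).mapMatrix.comp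
      (Algebra.leftMulMatrix b).toRingHom with hf
    have h0 : f (p : 𝓞 K) = 0 := by
      rw [map_natCast, ← Matrix.diagonal_natCast, ZMod.natCast_self, Matrix.diagonal_zero]
    obtain ⟨w, hw⟩ := hm
    have hnil : IsNilpotent (f (y * x)) := by
      refine ⟨m, ?_⟩
      rw [← map_pow, mul_pow, hw, map_mul, map_mul, h0, zero_mul, zero_mul]
    have := (Matrix.isNilpotent_trace_of_isNilpotent hnil).eq_zero
    rw [← this, hf]
    simp [Matrix.trace, map_sum]
  set c : Module.Free.ChooseBasisIndex ℤ (𝓞 K) → ZMod p :=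
    fun i => Int.castRingHom (ZMod p) (b.repr y i) with hc
  refine Matrix.exists_mulVec_eq_zero_iff.1 ⟨c, fun h0 => hy ?_, ?_⟩
  · have hd : ∀ i, (p : ℤ) ∣ b.repr y i := fun i =>
      (ZMod.intCast_zmod_eq_zero_iff_dvd _ p).1 (by simpa [hc] using congrFun h0 i)
    choose d hd using hd
    refine ⟨∑ i, d i • b i, ?_⟩
    rw [Finset.mul_sum]
    conv_lhs => rw [← b.sum_repr y]
    refine Finset.sum_congr rfl fun i _ => ?_
    rw [hd i, mul_smul]
    simp
  · funext i
    simp only [Matrix.mulVec, dotProduct, RingHom.mapMatrix_apply, Matrix.map_apply,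
      Algebra.traceMatrix_apply, Algebra.traceForm_apply, hc, Pi.zero_apply]
    simp only [← map_mul, ← map_sum]
    refine Eq.trans ?_ (hker (b i))
    congr 1
    conv_rhs => rw [← b.sum_repr y, Finset.sum_mul, map_sum]
    refine Finset.sum_congr rfl fun j _ => ?_
    rw [smul_mul_assoc, LinearMap.map_smul, smul_eq_mul, mul_comm, mul_comm (b i) (b j)]

/-- An increasing choice of the `a` solutions in `[0, π]` of `cos (a θ) = t`. -/
noncomputable def cosAngle (a : ℕ) (T : ℝ) (l : ℕ) : ℝ :=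
  (if Even l then T + Real.pi * l else Real.pi * (l + 1) - T) / a

lemma cosAngle_spec {a : ℕ} (ha : 0 < a) {T : ℝ} (hT0 : 0 < T) (hT : T < Real.pi) (l : ℕ) :
    Real.cos (a * cosAngle a T l) = Real.cos T ∧
      Real.pi * l / a < cosAngle a T l ∧ cosAngle a T l < Real.pi * (l + 1) / a := by
  have haR : (0 : ℝ) < a := by exact_mod_cast ha
  rw [cosAngle, mul_div_cancel₀ _ haR.ne', div_lt_div_iff_of_pos_right haR,
    div_lt_div_iff_of_pos_right haR]
  rcases Nat.even_or_odd l with hl | hl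
  · rw [if_pos hl]
    refine ⟨?_, by linarith, by linarith⟩
    obtain ⟨k, rfl⟩ := hl
    rw [show T + Real.pi * ((k + k : ℕ) : ℝ) = T + (k : ℕ) * (2 * Real.pi) by push_cast; ring,
      Real.cos_add_nat_mul_two_pi]
  · rw [if_neg (Nat.not_even_iff_odd.2 hl)]
    refine ⟨?_, by linarith, by linarith⟩
    obtain ⟨k, rfl⟩ := hl
    rw [show Real.pi * (((2 * k + 1 : ℕ) : ℝ) + 1) - T =
        (((k + 1 : ℕ)) : ℝ) * (2 * Real.pi) - T by push_cast; ring,
      Real.cos_nat_mul_two_pi_sub]

lemma cos_cosAngle_injective {a : ℕ} (ha : 0 < a) {T : ℝ} (hT0 : 0 < T) (hT : T < Real.pi) :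
    Function.Injective fun l : Fin a => Real.cos (cosAngle a T l) := by
  have haR : (0 : ℝ) < a := by exact_mod_cast ha
  have hmem : ∀ l : Fin a, cosAngle a T l ∈ Set.Icc 0 Real.pi := fun l => by
    obtain ⟨-, h1, h2⟩ := cosAngle_spec ha hT0 hT l
    have hl : (((l : ℕ) : ℝ) + 1) ≤ a := by exact_mod_cast l.isLt
    have : Real.pi * ((l : ℕ) + 1) / a ≤ Real.pi := by
      rw [div_le_iff₀ haR]
      exact mul_le_mul_of_nonneg_left hl Real.pi_pos.le
    have : 0 ≤ Real.pi * (l : ℕ) / a := by positivity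
    exact ⟨by linarith, by linarith⟩
  have hlt : ∀ i j : ℕ, i < j → cosAngle a T i < cosAngle a T j := fun i j hij => by
    have hij' : ((i : ℝ) + 1) ≤ j := by exact_mod_cast hij
    calc cosAngle a T i < Real.pi * (i + 1) / a := (cosAngle_spec ha hT0 hT i).2.2
      _ ≤ Real.pi * j / a :=
          div_le_div_of_nonneg_right (mul_le_mul_of_nonneg_left hij' Real.pi_pos.le) haR.le
      _ < _ := (cosAngle_spec ha hT0 hT j).2.1
  intro i j h
  have := Real.injOn_cos (hmem i) (hmem j) h
  rcases lt_trichotomy (i : ℕ) j with h' | h' | h'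
  · exact absurd this (hlt i j h').ne
  · exact Fin.ext h'
  · exact absurd this (hlt j i h').ne'

lemma eisPoly_coeff {b : ℕ} (hb : 2 ≤ b) :
    (∀ i < b, (2 : ℤ) ∣ (eisPoly b).coeff i) ∧ ¬ (4 : ℤ) ∣ (eisPoly b).coeff 0 := by
  have hd := (dick_monic (show 0 < b by omega)).2
  constructor
  · intro i hi
    rw [eisPoly, coeff_sub, coeff_scaleRoots, hd, coeff_C]
    refine dvd_sub (Dvd.dvd.mul_left (dvd_pow_self 2 (by omega)) _) ?_
    split_ifs <;> simp
  · rw [eisPoly, coeff_sub, coeff_scaleRoots, hd, coeff_C_zero]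
    intro h
    have h4 : (4 : ℤ) ∣ (dick b).coeff 0 * 2 ^ (b - 0) :=
      Dvd.dvd.mul_left (by simpa using pow_dvd_pow (2 : ℤ) (show 2 ≤ b by omega)) _
    have h2 := dvd_sub h4 h
    rw [sub_sub_cancel] at h2
    norm_num at h2

/-- `2^a p^a D_a (X / (2 p))`. -/
noncomputable def innerPoly (a p : ℕ) : ℤ[X] := (dick a).scaleRoots (2 * p : ℤ)

lemma innerPoly_props {a : ℕ} (ha : 2 ≤ a) (p : ℕ) :
    (innerPoly a p).Monic ∧ (innerPoly a p).natDegree = a ∧
      ∀ i < a, (2 * (p : ℤ)) ^ (a - i) ∣ (innerPoly a p).coeff i := by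
  obtain ⟨hm, hd⟩ := dick_monic (show 0 < a by omega)
  refine ⟨(monic_scaleRoots_iff _).2 hm, by rw [innerPoly, natDegree_scaleRoots, hd], ?_⟩
  intro i _
  rw [innerPoly, coeff_scaleRoots, hd]
  exact dvd_mul_left _ _

/-- `p^b R (A(X) / p)`. -/
noncomputable def towerPoly (a b p : ℕ) : ℤ[X] :=
  ((eisPoly b).scaleRoots (p : ℤ)).comp (innerPoly a p)

lemma map_two_eq_pow {f : ℤ[X]} {d : ℕ} (hm : f.Monic) (hd : f.natDegree = d)
    (h : ∀ i < d, (2 : ℤ) ∣ f.coeff i) : f.map (Int.castRingHom (ZMod 2)) = Polynomial.X ^ d := by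
  ext i
  rw [coeff_map, coeff_X_pow]
  rcases lt_trichotomy i d with hi | rfl | hi
  · rw [if_neg hi.ne]
    exact (ZMod.intCast_zmod_eq_zero_iff_dvd _ 2).2 (by exact_mod_cast h i hi)
  · rw [if_pos rfl, ← hd, hm.coeff_natDegree, map_one]
  · rw [if_neg hi.ne', coeff_eq_zero_of_natDegree_lt (by omega), map_zero]

lemma towerPoly_props {a b p : ℕ} (ha : 2 ≤ a) (hb : 2 ≤ b) (hp : ¬ 2 ∣ p) :
    (towerPoly a b p).Monic ∧ (towerPoly a b p).natDegree = a * b ∧
      Irreducible (towerPoly a b p) := by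
  obtain ⟨hRm, hRd, -⟩ := eisPoly_props hb
  obtain ⟨hR2, hR4⟩ := eisPoly_coeff hb
  obtain ⟨hAm, hAd, hAc⟩ := innerPoly_props ha p
  have hR'm : ((eisPoly b).scaleRoots (p : ℤ)).Monic := (monic_scaleRoots_iff _).2 hRm
  have hR'd : ((eisPoly b).scaleRoots (p : ℤ)).natDegree = b := by
    rw [natDegree_scaleRoots, hRd]
  have hdeg : (towerPoly a b p).natDegree = a * b := by
    rw [towerPoly, natDegree_comp, hR'd, hAd, mul_comm]
  have hmon : (towerPoly a b p).Monic := hR'm.comp hAm (by omega)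
  have hab : 0 < a * b := by positivity
  have hmap : (towerPoly a b p).map (Int.castRingHom (ZMod 2)) = Polynomial.X ^ (a * b) := by
    rw [towerPoly, map_comp, map_two_eq_pow hR'm hR'd, map_two_eq_pow hAm hAd, X_pow_comp,
      ← pow_mul]
    · exact fun i hi =>
        ((dvd_pow_self 2 (by omega : a - i ≠ 0)).trans
          (pow_dvd_pow_of_dvd (dvd_mul_right 2 (p : ℤ)) _)).trans (hAc i hi)
    · intro i hi
      rw [coeff_scaleRoots]
      exact (hR2 i hi).mul_right _
  refine ⟨hmon, hdeg, ?_⟩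
  have hprime : (Ideal.span {(2 : ℤ)}).IsPrime :=
    (Ideal.span_singleton_prime (by norm_num)).2 Int.prime_two
  refine IsEisensteinAt.irreducible ⟨?_, ?_, ?_⟩ hprime hmon.isPrimitive (by omega)
  · rw [hmon.leadingCoeff, Ideal.mem_span_singleton]; omega
  · intro i hi
    rw [hdeg] at hi
    rw [Ideal.mem_span_singleton]
    have := congrArg (fun f : (ZMod 2)[X] => f.coeff i) hmap
    simp only [coeff_map, coeff_X_pow, if_neg hi.ne, eq_intCast] at this
    exact (ZMod.intCast_zmod_eq_zero_iff_dvd _ 2).1 this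
  · rw [Ideal.span_singleton_pow, Ideal.mem_span_singleton, coeff_zero_eq_eval_zero, towerPoly,
      eval_comp, ← coeff_zero_eq_eval_zero]
    set x := (innerPoly a p).coeff 0
    have hx : (4 : ℤ) ∣ x := by
      have h := hAc 0 (by omega)
      refine (Dvd.dvd.trans ?_ h)
      rw [mul_pow]
      exact (by simpa using pow_dvd_pow (2 : ℤ) (show 2 ≤ a - 0 by omega) :
        (4 : ℤ) ∣ 2 ^ (a - 0)).mul_right _
    intro h
    have h1 : x ∣ ((eisPoly b).scaleRoots (p : ℤ)).eval x -
        ((eisPoly b).scaleRoots (p : ℤ)).eval 0 := by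
      simpa using sub_dvd_eval_sub x 0 ((eisPoly b).scaleRoots (p : ℤ))
    have h' : (4 : ℤ) ∣ ((eisPoly b).scaleRoots (p : ℤ)).eval x := by norm_num at h; exact h
    have h2 := dvd_sub h' (hx.trans h1)
    rw [sub_sub_cancel, ← coeff_zero_eq_eval_zero, coeff_scaleRoots] at h2
    refine hR4 ((IsCoprime.pow_right ?_).dvd_of_dvd_mul_right h2)
    rw [Int.isCoprime_iff_gcd_eq_one]
    change Nat.gcd 4 p = 1
    exact Nat.Coprime.pow_left 2 ((Nat.prime_two.coprime_iff_not_dvd).2 hp)

/-- For every large prime `p` a totally real field of degree `a b` whose discriminant is a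
multiple of `p`, containing an irrational algebraic integer of house at most `4`. -/
theorem exists_maximal_field {a b p : ℕ} (ha : 2 ≤ a) (hb : 2 ≤ b) (hp : p.Prime) (hp2 : p ≠ 2)
    (hpb : ((eisPoly b).coeff 0).natAbs < p) :
    ∃ (K : Type) (_ : Field K) (_ : NumberField K) (σ : Fin (a * b) ≃ (K →+* ℝ)) (z : 𝓞 K),
      Module.finrank ℚ K = a * b ∧ (z : K) ∉ Set.range (algebraMap ℚ K) ∧
        (∀ j, |σ j (z : K)| ≤ 4) ∧ (p : ℤ) ∣ discr K := by
  classical
  set n := a * b with hn_def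
  have hn : 2 ≤ n := by nlinarith
  have hp2' : ¬ 2 ∣ p := fun h => hp2 ((Nat.prime_dvd_prime_iff_eq Nat.prime_two hp).1 h).symm
  have hpR : (0 : ℝ) < p := by exact_mod_cast hp.pos
  obtain ⟨hmon, hdeg, hirr⟩ := towerPoly_props ha hb hp2'
  obtain ⟨hRm, hRd, hRirr⟩ := eisPoly_props hb
  obtain ⟨hAm, hAd, hAc⟩ := innerPoly_props ha p
  let f : ℚ[X] := (towerPoly a b p).map (algebraMap ℤ ℚ)
  have hfm : f.Monic := hmon.map _
  have hfd : f.natDegree = n := by rw [hmon.natDegree_map, hdeg]
  have hfi : Irreducible f := hmon.irreducible_iff_irreducible_map_fraction_map.1 hirr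
  have : Fact (Irreducible f) := ⟨hfi⟩
  let K := AdjoinRoot f
  have hchar : CharZero K := charZero_of_injective_algebraMap (algebraMap ℚ K).injective
  have halg : (DivisionRing.toRatAlgebra : Algebra ℚ K) = (inferInstance : Algebra ℚ K) :=
    Subsingleton.elim _ _
  have hfin : Module.finrank ℚ K = n := by
    rw [← hfd]
    convert (AdjoinRoot.powerBasis hfi.ne_zero).finrank using 1
    congr 1
    all_goals first
      | rfl
      | exact (AdjoinRoot.powerBasis_dim hfi.ne_zero).symm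
      | (ext r x; simp [Algebra.smul_def])
  have : FiniteDimensional ℚ K := Module.finite_of_finrank_pos (by omega)
  have : NumberField K := {}
  let y : K := AdjoinRoot.root f
  have hy : aeval y (towerPoly a b p) = 0 := by
    have h : (f.map (AdjoinRoot.of f)).eval y = 0 := AdjoinRoot.isRoot_root f
    rw [Polynomial.map_map, eval_map] at h
    rw [aeval_def]
    exact (Subsingleton.elim ((AdjoinRoot.of f).comp (algebraMap ℤ ℚ)) (algebraMap ℤ K)) ▸ h
  -- the real roots
  let zr : Fin b → ℝ := fun k => 4 * Real.cos (angle b k)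
  let T : Fin b → ℝ := fun k => Real.arccos ((p : ℝ) * zr k / (2 * (2 * (p : ℝ)) ^ a))
  have hu : ∀ k, |(p : ℝ) * zr k / (2 * (2 * (p : ℝ)) ^ a)| < 1 := fun k => by
    have h1 : |zr k| ≤ 4 := by
      simp only [zr, abs_mul, abs_of_pos (show (0 : ℝ) < 4 by norm_num)]
      linarith [Real.abs_cos_le_one (angle b k)]
    have h2 : (2 : ℝ) ≤ p := by exact_mod_cast hp.two_le
    have h3 : (2 * (p : ℝ)) ^ 2 ≤ (2 * (p : ℝ)) ^ a := pow_le_pow_right₀ (by linarith) ha
    have h4 : (0 : ℝ) < 2 * (2 * (p : ℝ)) ^ a := by positivity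
    rw [abs_div, abs_mul, abs_of_pos hpR, abs_of_pos h4, div_lt_one h4]
    nlinarith [mul_le_mul_of_nonneg_left h1 hpR.le]
  have hT : ∀ k, 0 < T k ∧ T k < Real.pi := fun k =>
    ⟨Real.arccos_pos.2 (abs_lt.1 (hu k)).2, by
      refine lt_of_le_of_ne (Real.arccos_le_pi _) fun h => ?_
      have := Real.arccos_eq_pi.1 h
      linarith [(abs_lt.1 (hu k)).1]⟩
  let xr : Fin b × Fin a → ℝ := fun kl => 4 * p * Real.cos (cosAngle a (T kl.1) kl.2)
  have hxA : ∀ kl, aeval (xr kl) (innerPoly a p) = p * zr kl.1 := fun kl => by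
    obtain ⟨hc, -, -⟩ := cosAngle_spec (show 0 < a by omega) (hT kl.1).1 (hT kl.1).2 kl.2
    have e : xr kl = ((2 * p : ℤ) : ℝ) * (2 * Real.cos (cosAngle a (T kl.1) kl.2)) := by
      simp only [xr]; push_cast; ring
    rw [innerPoly, e, aeval_scaleRoots_mul, (dick_monic (show 0 < a by omega)).2, aeval_dick_cos,
      hc, Real.cos_arccos (abs_lt.1 (hu kl.1)).1.le (abs_lt.1 (hu kl.1)).2.le]
    push_cast
    field_simp
  have heval : ∀ kl, f.eval₂ (Rat.castHom ℝ) (xr kl) = 0 := fun kl => by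
    rw [eval₂_map, Subsingleton.elim ((Rat.castHom ℝ).comp (algebraMap ℤ ℚ)) (algebraMap ℤ ℝ),
      ← aeval_def, towerPoly, aeval_comp, hxA]
    have := aeval_scaleRoots_mul (eisPoly b) (p : ℤ) (zr kl.1)
    push_cast at this
    rw [this, angle_root hb kl.1, mul_zero]
  have hxinj : Function.Injective xr := by
    rintro ⟨k, l⟩ ⟨k', l'⟩ h
    have hz : zr k = zr k' := by
      have h1 := hxA (k, l)
      rw [h, hxA (k', l')] at h1
      exact (mul_left_cancel₀ hpR.ne' h1).symm
    obtain rfl : k = k' := angle_injective hb hz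
    have : l = l' := cos_cosAngle_injective (show 0 < a by omega) (hT k).1 (hT k).2
      (mul_left_cancel₀ (show (4 : ℝ) * p ≠ 0 by positivity) h)
    rw [this]
  let φ : Fin b × Fin a → (K →+* ℝ) := fun kl => AdjoinRoot.lift (Rat.castHom ℝ) _ (heval kl)
  have hφ : Function.Injective φ := fun j k h => by
    apply hxinj
    have := RingHom.congr_fun h y
    exact ((AdjoinRoot.lift_root (heval j)).symm.trans this).trans
      (AdjoinRoot.lift_root (heval k))
  let ι : (K →+* ℝ) → (K →+* ℂ) := fun ψ => Complex.ofRealHom.comp ψ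
  have hι : Function.Injective ι := fun φ ψ e =>
    RingHom.ext fun x => Complex.ofReal_injective (RingHom.congr_fun e x)
  have : Finite (K →+* ℝ) := Finite.of_injective ι hι
  have : Fintype (K →+* ℝ) := Fintype.ofFinite _
  have hcard : Fintype.card (Fin b × Fin a) = n := by simp [hn_def, mul_comm]
  have hbij : Function.Bijective φ := by
    rw [Fintype.bijective_iff_injective_and_card]
    refine ⟨hφ, le_antisymm (Fintype.card_le_of_injective φ hφ) ?_⟩
    have := Fintype.card_le_of_injective ι hι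
    rw [NumberField.Embeddings.card, hfin] at this
    rwa [hcard]
  -- the bounded element
  have hp0 : (p : K) ≠ 0 := by exact_mod_cast hp.ne_zero
  let zK : K := aeval y (innerPoly a p) / p
  have hAz : aeval y (innerPoly a p) = (p : K) * zK := by
    simp only [zK]; rw [mul_div_cancel₀ _ hp0]
  have hzR : aeval zK (eisPoly b) = 0 := by
    have := hy
    rw [towerPoly, aeval_comp, hAz] at this
    have h2 := aeval_scaleRoots_mul (A := K) (eisPoly b) (p : ℤ) zK
    push_cast at h2
    exact (mul_eq_zero.1 (h2.symm.trans this)).resolve_left (pow_ne_zero _ hp0)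
  let y₀ : 𝓞 K := ⟨y, ⟨towerPoly a b p, hmon, by rwa [← aeval_def]⟩⟩
  let z₀ : 𝓞 K := ⟨zK, ⟨eisPoly b, hRm, by rwa [← aeval_def]⟩⟩
  refine ⟨K, inferInstance, inferInstance,
    (Fintype.equivFinOfCardEq hcard).symm.trans (Equiv.ofBijective φ hbij), z₀, hfin, ?_, ?_, ?_⟩
  · rintro ⟨q, hq⟩
    have h0 : aeval zK ((eisPoly b).map (algebraMap ℤ ℚ)) = 0 := by
      rw [aeval_map_algebraMap, hzR]
    have hmin := minpoly.eq_of_irreducible_of_monic
      (hRm.irreducible_iff_irreducible_map_fraction_map.1 hRirr) h0 (hRm.map _)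
    have h1 : minpoly ℚ zK = Polynomial.X - C q := by
      rw [show zK = algebraMap ℚ K q from hq.symm]
      exact minpoly.eq_X_sub_C K q
    have := congrArg natDegree (hmin.trans h1)
    rw [hRm.natDegree_map, hRd, natDegree_X_sub_C] at this
    omega
  · intro j
    obtain ⟨kl, hkl⟩ : ∃ kl, ((Fintype.equivFinOfCardEq hcard).symm.trans
        (Equiv.ofBijective φ hbij)) j = φ kl := ⟨_, rfl⟩
    rw [hkl]
    have hy' : φ kl y = xr kl := AdjoinRoot.lift_root (heval kl)
    have : φ kl zK = zr kl.1 := by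
      simp only [zK, map_div₀]
      rw [show φ kl (p : K) = (p : ℝ) from map_natCast (φ kl) p]
      have e : φ kl (aeval y (innerPoly a p)) = aeval (xr kl) (innerPoly a p) := by
        rw [← hy']
        exact (aeval_algHom_apply (φ kl).toIntAlgHom y _).symm
      rw [e, hxA]
      field_simp
    change |φ kl zK| ≤ 4
    rw [this]
    simp only [zr, abs_mul, abs_of_pos (show (0 : ℝ) < 4 by norm_num)]
    linarith [Real.abs_cos_le_one (angle b kl.1)]
  · have hA0 : aeval y₀ (innerPoly a p) = (p : 𝓞 K) * z₀ := by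
      apply RingOfIntegers.ext
      change algebraMap (𝓞 K) K _ = algebraMap (𝓞 K) K _
      rw [← aeval_algebraMap_apply K y₀, map_mul, map_natCast]
      exact hAz
    have hsum : aeval y₀ (innerPoly a p) = y₀ ^ a +
        ∑ i ∈ Finset.range a, ((innerPoly a p).coeff i : 𝓞 K) * y₀ ^ i := by
      conv_lhs => rw [hAm.as_sum, hAd]
      simp [map_add, map_sum]
    have hcp : ∀ i < a, (p : 𝓞 K) ^ (a - i) ∣ ((innerPoly a p).coeff i : 𝓞 K) := fun i hi => by
      have h := (pow_dvd_pow_of_dvd (dvd_mul_left (p : ℤ) 2) (a - i)).trans (hAc i hi)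
      simpa using map_dvd (Int.castRingHom (𝓞 K)) h
    refine prime_dvd_discr hp y₀ a ?_ ?_
    · have h1 : (p : 𝓞 K) ∣ ∑ i ∈ Finset.range a, ((innerPoly a p).coeff i : 𝓞 K) * y₀ ^ i :=
        Finset.dvd_sum fun i hi => Dvd.dvd.mul_right
          ((dvd_pow_self _ (by have := Finset.mem_range.1 hi; omega)).trans
            (hcp i (Finset.mem_range.1 hi))) _
      have h2 : (p : 𝓞 K) ∣ y₀ ^ a +
          ∑ i ∈ Finset.range a, ((innerPoly a p).coeff i : 𝓞 K) * y₀ ^ i :=
        ⟨z₀, by rw [← hsum, hA0]⟩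
      exact (dvd_add_left h1).1 h2
    · rintro ⟨x, hx⟩
      have h1 : (p : 𝓞 K) ^ 2 ∣ (p : 𝓞 K) * z₀ := by
        rw [← hA0, hsum]
        refine dvd_add ?_ (Finset.dvd_sum fun i hi => ?_)
        · rw [hx, mul_pow]
          exact (pow_dvd_pow _ ha).mul_right _
        · have hi' := Finset.mem_range.1 hi
          rw [hx, mul_pow]
          calc (p : 𝓞 K) ^ 2 ∣ (p : 𝓞 K) ^ (a - i + i) := pow_dvd_pow _ (by omega)
            _ = (p : 𝓞 K) ^ (a - i) * (p : 𝓞 K) ^ i := pow_add _ _ _
            _ ∣ _ := mul_dvd_mul (hcp i hi') (dvd_mul_right _ _)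
      rw [sq, mul_dvd_mul_iff_left (Nat.cast_ne_zero.2 hp.ne_zero)] at h1
      -- so `p` divides `R(0)`
      have h2 : (p : 𝓞 K) ∣ algebraMap ℤ (𝓞 K) ((eisPoly b).coeff 0) := by
        have hR0 : aeval z₀ (eisPoly b) = 0 := by
          apply RingOfIntegers.ext
          change algebraMap (𝓞 K) K _ = algebraMap (𝓞 K) K _
          rw [← aeval_algebraMap_apply K z₀, map_zero]
          exact hzR
        have h3 := sub_dvd_eval_sub z₀ 0 ((eisPoly b).map (algebraMap ℤ (𝓞 K)))
        rw [eval_map, ← aeval_def, hR0, eval_map, ← aeval_def, ← coeff_zero_eq_aeval_zero', sub_zero,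
          zero_sub, dvd_neg] at h3
        exact h1.trans h3
      obtain ⟨w, hw⟩ := h2
      have hw' : (((eisPoly b).coeff 0 : ℤ) : K) = (p : K) * (w : K) := by
        simpa using congrArg (fun t : 𝓞 K => (t : K)) hw
      have hint : IsIntegral ℤ ((((eisPoly b).coeff 0 : ℤ) : ℚ) / p) := by
        rw [← isIntegral_algebraMap_iff (algebraMap ℚ K).injective, map_div₀, map_natCast,
          map_intCast, hw', mul_div_cancel_left₀ _ hp0]
        exact w.2
      obtain ⟨t, ht⟩ := IsIntegrallyClosed.isIntegral_iff.1 hint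
      rw [eq_intCast, eq_div_iff (Nat.cast_ne_zero.2 hp.ne_zero)] at ht
      have hdvd : (p : ℤ) ∣ (eisPoly b).coeff 0 := ⟨t, by
        have : t * (p : ℤ) = (eisPoly b).coeff 0 := by exact_mod_cast ht
        rw [← this, mul_comm]⟩
      have h0 := Int.eq_zero_of_dvd_of_natAbs_lt_natAbs hdvd (by simpa using hpb)
      exact (eisPoly_coeff hb).2 (by rw [h0]; exact dvd_zero _)

lemma exists_intBasis {n : ℕ} {K : Type} [Field K] [NumberField K]
    (hn : Module.finrank ℚ K = n) :
    Nonempty (Module.Basis (Fin n) ℤ (integralClosure ℤ K).toSubring) := by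
  have e : 𝓞 K ≃ₗ[ℤ] (integralClosure ℤ K).toSubring :=
    AddEquiv.toIntLinearEquiv
      { toFun := fun x => ⟨x.1, x.2⟩
        invFun := fun x => ⟨x.1, x.2⟩
        left_inv := fun _ => rfl
        right_inv := fun _ => rfl
        map_add' := fun _ _ => rfl }
  refine ⟨(((RingOfIntegers.basis K).map e).reindex (Fintype.equivFinOfCardEq ?_))⟩
  rw [← Module.finrank_eq_card_chooseBasisIndex, RingOfIntegers.rank, hn]

/-- In every composite degree the class-group packets of a sequence of rings of integers with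
growing discriminants fail to equidistribute. -/
theorem exists_maximal_notEquidistributed (n : ℕ) (hn2 : 2 ≤ n) (hnp : ¬ n.Prime) :
    ∃ (K : ℕ → Type) (_ : ∀ i, Field (K i)) (_ : ∀ i, NumberField (K i))
      (σ : ∀ i, Fin n ≃ (K i →+* ℝ)),
      (∀ i, Module.finrank ℚ (K i) = n) ∧
      (∀ i, IsOrder (integralClosure ℤ (K i)).toSubring) ∧
      Tendsto (fun i => |discr (K i)|) atTop atTop ∧
      (∀ i, (packetSupport (σ i) (integralClosure ℤ (K i)).toSubring).Nonempty) ∧
      NotEquidistributed (fun i => packetSupport (σ i) (integralClosure ℤ (K i)).toSubring) := by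
  obtain ⟨a, ⟨c, rfl⟩, ha2, halt⟩ := Nat.exists_dvd_of_not_prime2 hn2 hnp
  have hc2 : 2 ≤ c := by
    rcases c with _ | _ | c
    · simp at halt
    · simp at halt
    · omega
  choose p hpge hp using fun i : ℕ =>
    Nat.exists_infinite_primes (i + ((eisPoly c).coeff 0).natAbs + 3)
  have h := fun i => exists_maximal_field ha2 hc2 (hp i) (by have := hpge i; omega)
    (by have := hpge i; omega)
  choose K iF iN σ z hfin hzq hzb hd using h
  refine ⟨K, iF, iN, σ, hfin, fun i => ⟨fun x hx => hx, ?_⟩, ?_, fun i => ?_, ?_⟩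
  · rw [eq_top_iff, ← (integralBasis (K i)).span_eq, Submodule.span_le]
    rintro _ ⟨j, rfl⟩
    rw [integralBasis_apply]
    exact Submodule.subset_span (RingOfIntegers.basis (K i) j).2
  · refine tendsto_atTop_mono (fun i => ?_) tendsto_natCast_atTop_atTop
    have h1 : (p i : ℤ) ≤ |discr (K i)| :=
      Int.le_of_dvd (abs_pos.2 (discr_ne_zero _)) ((dvd_abs _ _).2 (hd i))
    have : (i : ℤ) ≤ p i := by exact_mod_cast (show i ≤ p i by have := hpge i; omega)
    omega
  · exact packetSupport_nonempty (hfin i) (σ i) _ (exists_intBasis (hfin i)).some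
  · exact notEquidistributed_of_bounded _ K hfin σ _ 4
      (Frequently.of_forall fun i => ⟨z i, (z i).2, hzq i, hzb i⟩)

end Vale.Agent.P007
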