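import Vale.Agent.P007.Topology

/-!
A packet of an order containing an element of bounded house outside ℚ lies in a fixed closed
set with nonempty open complement, depending only on the degree and the bound.
-/

namespace Vale.Agent.P007

open MeasureTheory Filter Topology Polynomial Matrix

variable {n : ℕ}

lemma coe_mul_inv {R : Type*} [CommRing R] (g : SpecialLinearGroup (Fin n) R) :
    (g : Matrix (Fin n) (Fin n) R) * ((g⁻¹ : SpecialLinearGroup (Fin n) R) :
      Matrix (Fin n) (Fin n) R) = 1 :=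
  congrArg Subtype.val (mul_inv_cancel g)

lemma coe_inv_mul {R : Type*} [CommRing R] (g : SpecialLinearGroup (Fin n) R) :
    ((g⁻¹ : SpecialLinearGroup (Fin n) R) : Matrix (Fin n) (Fin n) R) *
      (g : Matrix (Fin n) (Fin n) R) = 1 :=
  congrArg Subtype.val (inv_mul_cancel g)

/-- Coercion of integer matrices to real matrices. -/
abbrev castMat (M : Matrix (Fin n) (Fin n) ℤ) : Matrix (Fin n) (Fin n) ℝ :=
  (Int.castRingHom ℝ).mapMatrix M

/-- Real roots of integer polynomials of degree at most `n` with bounded coefficients. -/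
noncomputable def rootValues (n : ℕ) (B : ℝ) : Set ℝ :=
  ⋃ (p : ℤ[X]) (_ : p.natDegree ≤ n ∧ ∀ i, p.coeff i ∈
      Set.Icc (-⌈max B 1 ^ n * n.choose (n / 2)⌉) ⌈max B 1 ^ n * n.choose (n / 2)⌉),
    ((p.map (Int.castRingHom ℝ)).roots.toFinset : Set ℝ)

lemma rootValues_finite (n : ℕ) (B : ℝ) : (rootValues n B).Finite :=
  bUnion_roots_finite _ _ (Set.finite_Icc _ _)

/-- Nonscalar diagonals with entries among `rootValues`. -/
noncomputable def diagSet (n : ℕ) (B : ℝ) : Set (Fin n → ℝ) :=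
  {d | (∀ j, d j ∈ rootValues n B) ∧ ∃ j k, d j ≠ d k}

lemma diagSet_finite (n : ℕ) (B : ℝ) : (diagSet n B).Finite :=
  (Set.Finite.pi fun _ => rootValues_finite n B).subset fun _ hd => fun j _ => hd.1 j

/-- Matrices whose lattice is stable under a diagonal of `diagSet`. -/
def badSet (n : ℕ) (B : ℝ) : Set (G n) :=
  ⋃ d ∈ diagSet n B, {g | ∃ M : Matrix (Fin n) (Fin n) ℤ,
    castMat M * (g : Matrix (Fin n) (Fin n) ℝ) = (g : Matrix (Fin n) (Fin n) ℝ) * diagonal d}

lemma isClosed_badSet (n : ℕ) (B : ℝ) : IsClosed (badSet n B) := by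
  refine (diagSet_finite n B).isClosed_biUnion fun d _ => ?_
  have hr : IsClosed (Set.range (castMat (n := n))) :=
    (IsClosedEmbedding.matrix_map (m := Fin n) (n := Fin n)
      Int.isClosedEmbedding_coe_real).isClosed_range
  have : {g : G n | ∃ M : Matrix (Fin n) (Fin n) ℤ,
      castMat M * (g : Matrix (Fin n) (Fin n) ℝ) = (g : Matrix (Fin n) (Fin n) ℝ) * diagonal d} =
      (fun g : G n => (g : Matrix (Fin n) (Fin n) ℝ) * diagonal d *
        ((g⁻¹ : G n) : Matrix (Fin n) (Fin n) ℝ)) ⁻¹' Set.range (castMat (n := n)) := by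
    ext g
    have h1 := coe_mul_inv g
    have h2 := coe_inv_mul g
    simp only [Set.mem_ofPred_eq, Set.mem_preimage, Set.mem_range]
    refine exists_congr fun M => ⟨fun h => ?_, fun h => ?_⟩
    · rw [← h, Matrix.mul_assoc, h1, Matrix.mul_one]
    · rw [h, Matrix.mul_assoc, h2, Matrix.mul_one]
  rw [this]
  refine hr.preimage ?_
  have hc : Continuous fun g : G n => (g : Matrix (Fin n) (Fin n) ℝ) := continuous_subtype_val
  exact (hc.mul continuous_const).mul (hc.comp continuous_inv)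

lemma badSet_saturated {B : ℝ} {a b : G n} (h : proj a = proj b) (ha : a ∈ badSet n B) :
    b ∈ badSet n B := by
  obtain ⟨u, hu⟩ := proj_eq_proj.1 h
  obtain ⟨d, hd, M, hM⟩ := Set.mem_iUnion₂.1 ha
  have hb : (b : Matrix (Fin n) (Fin n) ℝ) =
      castMat (u : Matrix (Fin n) (Fin n) ℤ) * (a : Matrix (Fin n) (Fin n) ℝ) := by
    have : b = SpecialLinearGroup.map (Int.castRingHom ℝ) u * a := by simp [hu]
    rw [this]; rfl
  have hinv : castMat ((u⁻¹ : SpecialLinearGroup (Fin n) ℤ) : Matrix (Fin n) (Fin n) ℤ) *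
      castMat (u : Matrix (Fin n) (Fin n) ℤ) = 1 := by
    rw [← map_mul, coe_inv_mul, map_one]
  refine Set.mem_biUnion hd ⟨(u : Matrix (Fin n) (Fin n) ℤ) * M *
    ((u⁻¹ : SpecialLinearGroup (Fin n) ℤ) : Matrix (Fin n) (Fin n) ℤ), ?_⟩
  have hmm : ∀ P Q : Matrix (Fin n) (Fin n) ℤ, castMat (P * Q) = castMat P * castMat Q :=
    fun P Q => map_mul _ P Q
  rw [hb, hmm, hmm]
  calc castMat (u : Matrix (Fin n) (Fin n) ℤ) * castMat M *
        castMat ((u⁻¹ : SpecialLinearGroup (Fin n) ℤ) : Matrix (Fin n) (Fin n) ℤ) *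
        (castMat (u : Matrix (Fin n) (Fin n) ℤ) * (a : Matrix (Fin n) (Fin n) ℝ))
      = castMat (u : Matrix (Fin n) (Fin n) ℤ) * (castMat M *
          ((castMat ((u⁻¹ : SpecialLinearGroup (Fin n) ℤ) : Matrix (Fin n) (Fin n) ℤ) *
            castMat (u : Matrix (Fin n) (Fin n) ℤ)) * (a : Matrix (Fin n) (Fin n) ℝ))) := by
        simp only [Matrix.mul_assoc]
    _ = _ := by rw [hinv, Matrix.one_mul, hM, Matrix.mul_assoc]

lemma exists_not_mem_badSet (n : ℕ) (B : ℝ) : ∃ g : G n, g ∉ badSet n B := by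
  rcases Nat.eq_zero_or_pos n with rfl | hn
  · refine ⟨1, ?_⟩
    simp [badSet, diagSet]
  let bad : Set ℝ := ⋃ d ∈ diagSet n B, ⋃ j : Fin n, ⋃ m : ℤ, {(m : ℝ) / (d j - d ⟨0, hn⟩)}
  have hbad : bad.Countable :=
    (diagSet_finite n B).countable.biUnion fun d _ =>
      Set.countable_iUnion fun j => Set.countable_iUnion fun m => Set.countable_singleton _
  obtain ⟨t, ht⟩ : ∃ t, t ∉ bad := by
    by_contra hcon
    push Not at hcon
    exact Cardinal.not_countable_real (hbad.mono fun x _ => hcon x)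
  set z : Fin n := ⟨0, hn⟩
  let u : Fin n → ℝ := fun j => if j = z then 0 else t
  let A : Matrix (Fin n) (Fin n) ℝ :=
    1 + replicateCol Unit (Pi.single z (1 : ℝ)) * replicateRow Unit u
  have hA : A.det = 1 := by
    rw [det_one_add_replicateCol_mul_replicateRow]
    simp [u]
  refine ⟨⟨A, hA⟩, ?_⟩
  intro hmem
  obtain ⟨d, hd, M, hM'⟩ := Set.mem_iUnion₂.1 hmem
  have hM : castMat M * A = A * diagonal d := hM'
  obtain ⟨j, hj⟩ : ∃ j, d j ≠ d z := by
    obtain ⟨p, q, hpq⟩ := hd.2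
    by_contra hall
    push Not at hall
    exact hpq ((hall p).trans (hall q).symm)
  have hjz : j ≠ z := fun h => hj (by rw [h])
  have hAapp : ∀ i k, A i k = (1 : Matrix (Fin n) (Fin n) ℝ) i k +
      (if i = z then u k else 0) := by
    intro i k
    simp [A, Matrix.mul_apply, Pi.single_apply]
  have e0 := congrFun (congrFun hM z) z
  have ej := congrFun (congrFun hM z) j
  simp only [mul_diagonal] at e0 ej
  simp only [Matrix.mul_apply, hAapp, mul_add, Finset.sum_add_distrib] at e0 ej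
  simp [u, hjz, Ne.symm hjz, Matrix.one_apply] at e0 ej
  apply ht
  simp only [bad, Set.mem_iUnion, Set.mem_singleton_iff]
  refine ⟨d, hd, j, M z j, ?_⟩
  rw [eq_div_iff (sub_ne_zero.2 hj)]
  rw [e0] at ej
  linarith

/-- Entries of `σ α` lie in `rootValues`. -/
lemma mem_rootValues {B : ℝ} {g : G n} {d : Fin n → ℝ} (hd : ∀ j, |d j| ≤ B)
    {M : Matrix (Fin n) (Fin n) ℤ}
    (hM : castMat M * (g : Matrix (Fin n) (Fin n) ℝ) =
      (g : Matrix (Fin n) (Fin n) ℝ) * diagonal d) (j : Fin n) : d j ∈ rootValues n B := by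
  let u : (Matrix (Fin n) (Fin n) ℝ)ˣ :=
    ⟨g, ((g⁻¹ : G n) : Matrix (Fin n) (Fin n) ℝ), coe_mul_inv g, coe_inv_mul g⟩
  have hconj : castMat M = u.val * diagonal d * u⁻¹.val := by
    change castMat M = (g : Matrix (Fin n) (Fin n) ℝ) * diagonal d *
      ((g⁻¹ : G n) : Matrix (Fin n) (Fin n) ℝ)
    rw [← hM, Matrix.mul_assoc, coe_mul_inv, Matrix.mul_one]
  have hP : M.charpoly.map (Int.castRingHom ℝ) = ∏ i, (Polynomial.X - C (d i)) := by
    rw [← Matrix.charpoly_map, show M.map (Int.castRingHom ℝ) = castMat M from rfl, hconj,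
      Matrix.coe_units_inv, charpoly_units_conj, charpoly_diagonal]
  have hdeg : M.charpoly.natDegree ≤ n := by simp
  have hroot : ∀ z ∈ (M.charpoly.map (Int.castRingHom ℝ)).roots, ∃ i, z = d i := by
    intro z hz
    have hne : ∏ i, (Polynomial.X - C (d i)) ≠ 0 :=
      Finset.prod_ne_zero_iff.2 fun i _ => X_sub_C_ne_zero _
    rw [hP, mem_roots hne, IsRoot, eval_prod, Finset.prod_eq_zero_iff] at hz
    obtain ⟨i, -, hi⟩ := hz
    exact ⟨i, by simpa [sub_eq_zero] using hi⟩
  refine Set.mem_biUnion (x := M.charpoly) ⟨hdeg, fun i => ?_⟩ ?_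
  · have hb := coeff_bdd_of_roots_le (B := B) (d := n) (RingHom.id ℝ)
      (p := M.charpoly.map (Int.castRingHom ℝ)) ((charpoly_monic M).map _)
      (by rw [Polynomial.map_id, hP]; exact Splits.prod fun i _ => Splits.X_sub_C _)
      (Polynomial.natDegree_map_le.trans hdeg)
      (by
        intro z hz
        rw [Polynomial.map_id] at hz
        obtain ⟨i, rfl⟩ := hroot z hz
        simpa [Real.norm_eq_abs] using hd i) i
    rw [Polynomial.map_id, coeff_map, Real.norm_eq_abs] at hb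
    simp only [eq_intCast, ← Int.cast_abs] at hb
    have := hb.trans (Int.le_ceil _)
    rw [Set.mem_Icc, ← abs_le]
    exact_mod_cast this
  · have hne : M.charpoly.map (Int.castRingHom ℝ) ≠ 0 := ((charpoly_monic M).map _).ne_zero
    simp only [Finset.mem_coe, Multiset.mem_toFinset, mem_roots hne]
    rw [hP]
    rw [IsRoot, eval_prod]
    exact Finset.prod_eq_zero (Finset.mem_univ j) (by simp)

/-- An element of a totally real field all of whose conjugates are equal is rational. -/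
lemma mem_rat_of_conjugates_eq {K : Type} [Field K] [NumberField K]
    (hn : Module.finrank ℚ K = n) (σ : Fin n ≃ (K →+* ℝ)) (α : K)
    (h : ∀ j k, σ j α = σ k α) : α ∈ Set.range (algebraMap ℚ K) := by
  classical
  haveI : Fintype (K →+* ℝ) := Fintype.ofEquiv _ σ
  let ι : (K →+* ℝ) → (K →+* ℂ) := fun φ => Complex.ofRealHom.comp φ
  have hι : Function.Injective ι := fun φ ψ e =>
    RingHom.ext fun x => Complex.ofReal_injective (RingHom.congr_fun e x)
  have hbij : Function.Bijective ι := by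
    rw [Fintype.bijective_iff_injective_and_card]
    refine ⟨hι, ?_⟩
    rw [NumberField.Embeddings.card, hn, ← Fintype.card_congr σ, Fintype.card_fin]
  have hsub : ((minpoly ℚ α).rootSet ℂ).Subsingleton := by
    rw [← NumberField.Embeddings.range_eval_eq_rootSet_minpoly K ℂ α]
    rintro _ ⟨φ, rfl⟩ _ ⟨ψ, rfl⟩
    obtain ⟨φ, rfl⟩ := hbij.2 φ
    obtain ⟨ψ, rfl⟩ := hbij.2 ψ
    obtain ⟨j, rfl⟩ := σ.surjective φ
    obtain ⟨k, rfl⟩ := σ.surjective ψ
    simp [ι, h j k]
  have hint : IsIntegral ℚ α := Algebra.IsIntegral.isIntegral α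
  have hcard : Fintype.card ((minpoly ℚ α).rootSet ℂ) = (minpoly ℚ α).natDegree :=
    card_rootSet_eq_natDegree (minpoly.irreducible hint).separable (IsAlgClosed.splits _)
  have h1 : (minpoly ℚ α).natDegree ≤ 1 := by
    rw [← hcard]
    exact Fintype.card_le_one_iff_subsingleton.2 (Set.subsingleton_coe _ |>.2 hsub)
  obtain ⟨q, hq⟩ := minpoly.natDegree_eq_one_iff.1
    (le_antisymm h1 (minpoly.natDegree_pos hint))
  exact ⟨q, hq⟩

/-- The packet of an order containing a bounded irrational element avoids the good set. -/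
lemma packetSupport_subset {B : ℝ} {K : Type} [Field K] [NumberField K]
    (hn : Module.finrank ℚ K = n) (σ : Fin n ≃ (K →+* ℝ)) (O : Subring K) (α : K)
    (hα : α ∈ O) (hq : α ∉ Set.range (algebraMap ℚ K)) (hb : ∀ j, |σ j α| ≤ B)
    {x : X n} (hx : x ∈ packetSupport σ O) :
    ∃ g : G n, proj g = x ∧ g ∈ badSet n B := by
  obtain ⟨g, hg, I, -, c, -, w, -, a, -, -, hlat⟩ := hx
  refine ⟨g, hg, ?_⟩
  have hrow : ∀ i, ∃ m : Fin n → ℤ, ∀ j,
      (g : Matrix (Fin n) (Fin n) ℝ) i j * σ j α =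
        ∑ k, (m k : ℝ) * (g : Matrix (Fin n) (Fin n) ℝ) k j := by
    intro i
    have hi : (fun j => (g : Matrix (Fin n) (Fin n) ℝ) i j) ∈ latticeOf g :=
      ⟨Pi.single i 1, fun j => by simp [Pi.single_apply]⟩
    rw [hlat] at hi
    obtain ⟨y, hy, hye⟩ := hi
    have hy' : α * y ∈ I := by
      have := I.smul_mem (⟨α, hα⟩ : O) hy
      simpa [Subring.smul_def] using this
    have hmem : (fun j => c * σ j (α * y) * w j * a j) ∈ latticeOf g := by
      rw [hlat]; exact ⟨α * y, hy', rfl⟩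
    obtain ⟨m, hm⟩ := hmem
    refine ⟨m, fun j => ?_⟩
    rw [← hm j, ← congrFun hye j]
    simp only [map_mul]
    ring
  choose m hm using hrow
  have hM : castMat (Matrix.of m) * (g : Matrix (Fin n) (Fin n) ℝ) =
      (g : Matrix (Fin n) (Fin n) ℝ) * diagonal (fun j => σ j α) := by
    ext i j
    rw [mul_diagonal, hm i j]
    simp [Matrix.mul_apply]
  refine Set.mem_biUnion (x := fun j => σ j α) ⟨mem_rootValues hb hM, ?_⟩ ⟨_, hM⟩
  by_contra hall
  push Not at hall
  exact hq (mem_rat_of_conjugates_eq hn σ α hall)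

/-- If infinitely many orders contain an irrational element of house at most `B`, their packets
do not equidistribute. -/
theorem notEquidistributed_of_bounded (n : ℕ) (K : ℕ → Type) [∀ i, Field (K i)]
    [∀ i, NumberField (K i)] (hn : ∀ i, Module.finrank ℚ (K i) = n)
    (σ : ∀ i, Fin n ≃ (K i →+* ℝ)) (O : ∀ i, Subring (K i)) (B : ℝ)
    (h : ∃ᶠ i in atTop, ∃ α ∈ O i, α ∉ Set.range (algebraMap ℚ (K i)) ∧
      ∀ j, |σ i j α| ≤ B) :
    NotEquidistributed (fun i => packetSupport (σ i) (O i)) := by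
  obtain ⟨g₀, hg₀⟩ := exists_not_mem_badSet n B
  refine notEquidistributed_of_open _ (proj '' (badSet n B)ᶜ)
    (isOpenQuotientMap_proj.isOpenMap _ (isClosed_badSet n B).isOpen_compl)
    ⟨proj g₀, g₀, hg₀, rfl⟩ (h.mono ?_)
  rintro i ⟨α, hα, hq, hb⟩
  rw [Set.disjoint_left]
  rintro x hx ⟨g, hg, rfl⟩
  obtain ⟨g', hgg, hg'⟩ := packetSupport_subset (hn i) (σ i) (O i) α hα hq hb hx
  exact hg (badSet_saturated hgg hg')

end Vale.Agent.P007
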