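import Vale.Agent.P007.Defs

namespace Vale.Agent.P007

open MeasureTheory Filter Topology

variable {n : ℕ}

lemma isClosed_intSubgroup : IsClosed (intSubgroup n : Set (G n)) := by
  have h : IsClosedEmbedding (Int.castRingHom ℝ) := Int.isClosedEmbedding_coe_real
  simpa [intSubgroup] using
    (h.specialLinearGroup_map (n := Fin n)).isClosed_range

lemma isOpenQuotientMap_proj : IsOpenQuotientMap (proj : G n → X n) :=
  MulAction.isOpenQuotientMap_quotientMk (Γ := intSubgroup n) (T := G n)

lemma proj_eq_proj {a b : G n} : proj a = proj b ↔ b * a⁻¹ ∈ intSubgroup n :=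
  Iff.trans Quotient.eq QuotientGroup.rightRel_apply

instance : T2Space (X n) := by
  rw [t2Space_iff_of_isOpenQuotientMap isOpenQuotientMap_proj]
  have : {q : G n × G n | proj q.1 = proj q.2} =
      (fun q => q.2 * q.1⁻¹) ⁻¹' (intSubgroup n : Set (G n)) := by
    ext q; exact proj_eq_proj
  rw [this]
  exact isClosed_intSubgroup.preimage (by fun_prop)

instance : LocallyCompactSpace (Matrix (Fin n) (Fin n) ℝ) :=
  inferInstanceAs (LocallyCompactSpace (Fin n → Fin n → ℝ))

instance : SecondCountableTopology (Matrix (Fin n) (Fin n) ℝ) :=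
  inferInstanceAs (SecondCountableTopology (Fin n → Fin n → ℝ))

instance : LocallyCompactSpace (G n) :=
  Matrix.SpecialLinearGroup.isClosedEmbedding_val.locallyCompactSpace

instance : SecondCountableTopology (G n) :=
  Matrix.SpecialLinearGroup.isClosedEmbedding_val.isEmbedding.secondCountableTopology

instance : LocallyCompactSpace (X n) :=
  isOpenQuotientMap_proj.locallyCompactSpace

instance : SecondCountableTopology (X n) :=
  (isOpenQuotientMap_proj (n := n)).isQuotientMap.secondCountableTopology
    isOpenQuotientMap_proj.isOpenMap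

lemma translate_proj (g h : G n) : translate h (proj g) = proj (g * h) := rfl

lemma continuous_translate (h : G n) : Continuous (translate h) := by
  rw [isOpenQuotientMap_proj.isQuotientMap.continuous_iff]
  exact isOpenQuotientMap_proj.continuous.comp (continuous_mul_const h)

/-- An invariant probability measure is positive on nonempty open sets. -/
lemma pos_of_invariant (m : Measure (X n)) [IsProbabilityMeasure m]
    (hm : ∀ h : G n, m.map (translate h) = m) (U : Set (X n)) (hU : IsOpen U)
    (hne : U.Nonempty) : 0 < m U := by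
  by_contra hcon
  have h0 : m U = 0 := nonpos_iff_eq_zero.1 (not_lt.1 hcon)
  have ho : ∀ h, IsOpen (translate h ⁻¹' U) := fun h => hU.preimage (continuous_translate h)
  obtain ⟨x, hx⟩ := hne
  obtain ⟨g, rfl⟩ := isOpenQuotientMap_proj.surjective x
  have hcover : ⋃ h, translate h ⁻¹' U = Set.univ := by
    refine Set.eq_univ_of_forall fun y => ?_
    obtain ⟨a, rfl⟩ := isOpenQuotientMap_proj.surjective y
    exact Set.mem_iUnion.2 ⟨a⁻¹ * g, by simp [translate_proj, hx]⟩
  obtain ⟨T, hT, hTU⟩ := TopologicalSpace.isOpen_iUnion_countable _ ho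
  have hz : ∀ h ∈ T, m (translate h ⁻¹' U) = 0 := fun h _ => by
    rw [← Measure.map_apply (continuous_translate h).measurable hU.measurableSet, hm h, h0]
  have huniv : m Set.univ = 0 := by
    rw [← hcover, ← hTU]
    exact (measure_biUnion_null_iff hT).2 hz
  simp at huniv

/-- A nonempty open set missed by infinitely many members of a sequence obstructs
equidistribution. -/
lemma notEquidistributed_of_open (S : ℕ → Set (X n)) (U : Set (X n)) (hU : IsOpen U)
    (hne : U.Nonempty) (h : ∃ᶠ i in atTop, Disjoint (S i) U) : NotEquidistributed S := by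
  obtain ⟨x, hx⟩ := hne
  obtain ⟨f, hf1, hf0, hfc, hf01⟩ := exists_continuous_one_zero_of_isCompact
    (isCompact_singleton (x := x)) hU.isClosed_compl
    (by simpa using hx)
  refine ⟨f, f.continuous, hfc, ?_⟩
  intro m hmP hm ν hν htend
  have hpos : ∀ V : Set (X n), IsOpen V → V.Nonempty → 0 < m V :=
    hm.elim id (fun hinv => pos_of_invariant m hinv)
  have hint : 0 < ∫ y, f y ∂m := by
    rw [integral_pos_iff_support_of_nonneg (fun y => (hf01 y).1)
      (f.continuous.integrable_of_hasCompactSupport hfc)]
    exact hpos _ f.continuous.isOpen_support ⟨x, by simp [hf1 (Set.mem_singleton x)]⟩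
  have hzero : ∃ᶠ i in atTop, ∫ y, f y ∂(ν i) = 0 := by
    refine h.mono fun i hi => integral_eq_zero_of_ae ?_
    refine ae_iff.2 (measure_mono_null ?_ (hν i).2)
    intro y hy hyS
    exact hy (hf0 (Set.disjoint_left.1 hi hyS))
  have hev : ∀ᶠ i in atTop, ∫ y, f y ∂(ν i) ≠ 0 :=
    (htend.eventually (lt_mem_nhds hint)).mono fun i hi => hi.ne'
  exact hzero hev

end Vale.Agent.P007
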